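import Vale.Agent.P073.SMV.Spec
import Vale.Agent.P073.ConicalStrata2
import Vale.Agent.P073.St

/-!
# Block SMF: the smoothing theorem for conical homeomorphisms between domains of `V = Fin 3 → ℝ`

`SpecSmooth` is the form of the smoothing theorem used by the analysis part: the derivative of the
diffeomorphism `G` is close to the derivative of the conical homeomorphism `h` on a locally finite
family of segments, on a locally finite family of flat pieces, and in the volume.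
-/

namespace P073.SMF

open Set Metric Topology Filter MeasureTheory
open scoped ContDiff ENNReal
open Vale.Agent.P073.St (V IsBoundedDomain IsDiffeo)

/-- The smoothing theorem with measures. -/
def SpecSmoothM : Prop :=
  ∀ (p : ℝ) (Ω Λ : Set V) (h : ConHomeo Ω Λ) (ι : Type) (_ : Countable ι) (μ : ι → Measure V)
    (τ : ι → V) (η : ι → ℝ) (ε : V → ℝ), 1 ≤ p → IsBoundedDomain Ω → IsBoundedDomain Λ →
    (∀ i, ∀ K ⊆ Ω, IsCompact K → μ i K < ⊤) → (∀ i, ∀ x ∈ Ω, μ i {x} = 0) →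
    (∀ K ⊆ Ω, IsCompact K → {i | μ i K ≠ 0}.Finite) →
    (∀ i, ∀ᵐ x ∂(μ i), x ∈ Ω → τ i ∈ linSpace h.toFun x) →
    (∀ i, 0 < η i) → ContinuousOn ε Ω → (∀ x ∈ Ω, 0 < ε x) →
    ∃ G : V → V, IsDiffeo Ω Λ G ∧ ContDiffOn ℝ ∞ G Ω ∧ (∀ x ∈ Ω, ‖G x - h.toFun x‖ ≤ ε x) ∧
      ∀ i, ∫⁻ x in Ω, ENNReal.ofReal (‖fderiv ℝ G x (τ i) - tcone h.toFun x (τ i)‖ ^ p) ∂(μ i) ≤
        ENNReal.ofReal (η i)

/-- The smoothing theorem. Segments `a i + [0,1] d i`; flat pieces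
`{update x (k q) (c q) | x ∈ Q q}`; volume. -/
def SpecSmooth : Prop :=
  ∀ (p : ℝ) (Ω Λ : Set V) (h : ConHomeo Ω Λ) (ε : V → ℝ) (ε₀ : ℝ),
    1 ≤ p → IsBoundedDomain Ω → IsBoundedDomain Λ → ContinuousOn ε Ω → (∀ x ∈ Ω, 0 < ε x) →
    0 < ε₀ →
    -- segments
    ∀ (ι : Type) (_ : Countable ι) (a d : ι → V) (η : ι → ℝ), (∀ i, d i ≠ 0) →
    (∀ i, segment ℝ (a i) (a i + d i) ⊆ Ω) →
    (∀ K ⊆ Ω, IsCompact K → {i | (segment ℝ (a i) (a i + d i) ∩ K).Nonempty}.Finite) →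
    (∀ i, 0 < η i) →
    -- flat pieces
    ∀ (κ : Type) (_ : Countable κ) (k : κ → Fin 3) (c : κ → ℝ) (Q : κ → Set V) (η' : κ → ℝ),
    (∀ q, IsCompact (Q q)) → (∀ q, ∀ x ∈ Q q, Function.update x (k q) (c q) ∈ Ω) →
    (∀ K ⊆ Ω, IsCompact K → {q | ∃ x ∈ Q q, Function.update x (k q) (c q) ∈ K}.Finite) →
    (∀ q, 0 < η' q) →
    ∃ G : V → V, IsDiffeo Ω Λ G ∧ ContDiffOn ℝ ∞ G Ω ∧ (∀ x ∈ Ω, ‖G x - h.toFun x‖ ≤ ε x) ∧
      (∀ i, ∫⁻ t in Icc (0:ℝ) 1, ENNReal.ofReal (‖fderiv ℝ G (a i + t • d i) (d i) -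
        deriv (fun s => h.toFun (a i + s • d i)) t‖ ^ p) ≤ ENNReal.ofReal (η i)) ∧
      (∀ q, ∀ j, j ≠ k q → ∫⁻ x in Q q,
        ENNReal.ofReal (‖fderiv ℝ G (Function.update x (k q) (c q)) (Pi.single j 1) -
          lineDeriv ℝ h.toFun (Function.update x (k q) (c q)) (Pi.single j 1)‖ ^ p) ≤
            ENNReal.ofReal (η' q)) ∧
      ∀ j, ∫⁻ x in Ω, ENNReal.ofReal (‖fderiv ℝ G x (Pi.single j 1) -
        fderiv ℝ h.toFun x (Pi.single j 1)‖ ^ p) ≤ ENNReal.ofReal ε₀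

end P073.SMF
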