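import Vale.Agent.P073.ConicalStrata2

/-!
# Block SMF: linearity spaces of conical maps on pieces of affine subspaces

For almost every point of an affine subspace, the directions of this subspace belong to the
linearity space of the conical map `h`.
-/

namespace P073.SMF

open Set Metric Topology Filter MeasureTheory

variable {E F E₁ : Type*} [NormedAddCommGroup E] [NormedSpace ℝ E]
  [NormedAddCommGroup F] [NormedSpace ℝ F]
  [NormedAddCommGroup E₁] [NormedSpace ℝ E₁] [FiniteDimensional ℝ E₁]
  [MeasurableSpace E₁] [BorelSpace E₁]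

/-- Almost every point of an affine subspace. -/
theorem ae_range_le [FiniteDimensional ℝ E] (μ : Measure E₁) [μ.IsAddHaarMeasure] {h : E → F} {Ω : Set E} (hΩ : IsOpen Ω)
    (H : ConicalOn h Ω) (a : E) (T : E₁ →L[ℝ] E) :
    ∀ᵐ x ∂μ, a + T x ∈ Ω → ∀ u, T u ∈ linSpace h (a + T x) := by
  set R : Submodule ℝ E := LinearMap.range (T : E₁ →ₗ[ℝ] E) with hR
  set S : ℕ → Set E₁ := fun i => {x | a + T x ∈ Ω ∧ (∃ u, T u ∉ linSpace h (a + T x)) ∧
    Module.finrank ℝ (linSpace h (a + T x) ⊓ R : Submodule ℝ E) = i} with hS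
  have key : ∀ i, μ (S i) = 0 := by
    intro i
    apply measure_null_of_locally_null
    intro x0 hx0
    obtain ⟨hx0Ω, ⟨u0, hu0⟩, hx0i⟩ := hx0
    have Hx := H.conicalAt hΩ hx0Ω
    obtain ⟨r, hr, hform⟩ := Hx.exists_tcone
    -- the exceptional subspace
    set W : Submodule ℝ E₁ := (linSpace h (a + T x0)).comap (T : E₁ →ₗ[ℝ] E) with hW
    have hWtop : W ≠ ⊤ := by
      intro hcon
      apply hu0
      have : u0 ∈ W := by rw [hcon]; trivial
      exact this
    have hWnull : μ ((fun x => x - x0) ⁻¹' (W : Set E₁)) = 0 := by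
      have h1 : μ (W : Set E₁) = 0 := Measure.addHaar_submodule μ W hWtop
      have h2 : (fun x => x - x0) ⁻¹' (W : Set E₁) = (fun x => x + (-x0)) ⁻¹' (W : Set E₁) := by
        ext x; simp [sub_eq_add_neg]
      rw [h2, measure_preimage_add_right]
      exact h1
    -- the neighbourhood
    have hcont : Continuous (fun x : E₁ => T (x - x0)) := by fun_prop
    have hnb : ∀ᶠ x in 𝓝 x0, ‖T (x - x0)‖ < r := by
      have h1 : Continuous (fun x : E₁ => ‖T (x - x0)‖) := hcont.norm
      exact h1.continuousAt.eventually_lt_const (by simpa using hr)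
    refine ⟨S i ∩ {x | ‖T (x - x0)‖ < r}, inter_mem self_mem_nhdsWithin
      (mem_nhdsWithin_of_mem_nhds hnb), ?_⟩
    refine measure_mono_null ?_ hWnull
    rintro x ⟨⟨hxΩ, -, hxi⟩, hxr⟩
    by_contra hxW
    have hxW' : T (x - x0) ∉ linSpace h (a + T x0) := hxW
    have hxe : a + T x = (a + T x0) + T (x - x0) := by rw [map_sub]; abel
    have Hx' : ConicalAt h ((a + T x0) + T (x - x0)) := by
      rw [← hxe]; exact H.conicalAt hΩ hxΩ
    have h1 := linSpace_le_near Hx hform hxr Hx'
    have h2 := self_mem_linSpace_near Hx hform hxr Hx'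
    rw [← hxe] at h1 h2
    have hlt : (linSpace h (a + T x0) ⊓ R : Submodule ℝ E) < linSpace h (a + T x) ⊓ R := by
      refine lt_of_le_of_ne (inf_le_inf_right _ h1) ?_
      intro hcon
      apply hxW'
      have h3 : T (x - x0) ∈ linSpace h (a + T x) ⊓ R :=
        ⟨h2, LinearMap.mem_range.2 ⟨x - x0, rfl⟩⟩
      rw [← hcon] at h3
      exact h3.1
    have h4 := Submodule.finrank_lt_finrank_of_lt hlt
    omega
  have hU : μ (⋃ i, S i) = 0 := measure_iUnion_null key
  rw [measure_eq_zero_iff_ae_notMem] at hU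
  filter_upwards [hU] with x hx hxΩ u
  by_contra hcon
  exact hx (mem_iUnion.2 ⟨_, hxΩ, ⟨u, hcon⟩, rfl⟩)

/-- The derivative of a conical map in a direction of its linearity space. -/
theorem hasDerivAt_of_mem {h : E → F} {x v : E} (Hx : ConicalAt h x) (hv : v ∈ linSpace h x) :
    HasDerivAt (fun s : ℝ => h (x + s • v)) (tcone h x v) 0 := by
  obtain ⟨r, hr, hform⟩ := Hx.exists_tcone
  have hev : ∀ᶠ s : ℝ in 𝓝 0, h (x + s • v) = h x + s • tcone h x v := by
    have hc2 : Continuous (fun s : ℝ => ‖s • v‖) := by fun_prop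
    have h1 : ∀ᶠ s : ℝ in 𝓝 0, ‖s • v‖ < r :=
      hc2.continuousAt.eventually_lt_const (by simpa using hr)
    filter_upwards [h1] with s hs
    rw [hform _ hs.le, tcone_smul_of_mem hv]
  have hlin : HasDerivAt (fun s : ℝ => h x + s • tcone h x v) (tcone h x v) 0 := by
    have h2 := ((hasDerivAt_id (0:ℝ)).smul_const (tcone h x v)).const_add (h x)
    rw [one_smul] at h2
    exact h2
  exact hlin.congr_of_eventuallyEq hev

/-- The same along a line with any base point. -/
theorem hasDerivAt_line {h : E → F} {a d : E} {t : ℝ} (Hx : ConicalAt h (a + t • d))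
    (hv : d ∈ linSpace h (a + t • d)) :
    HasDerivAt (fun s : ℝ => h (a + s • d)) (tcone h (a + t • d) d) t := by
  have h1 := hasDerivAt_of_mem Hx hv
  have h2 : HasDerivAt (fun s : ℝ => s - t) 1 t := (hasDerivAt_id t).sub_const t
  have h3 : HasDerivAt (fun s : ℝ => h (a + t • d + s • d)) (tcone h (a + t • d) d) (t - t) := by
    rw [sub_self]; exact h1
  have h4 : HasDerivAt ((fun s : ℝ => h (a + t • d + s • d)) ∘ (fun s : ℝ => s - t))
      ((1:ℝ) • tcone h (a + t • d) d) t := HasDerivAt.scomp t h3 h2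
  rw [one_smul] at h4
  refine h4.congr_of_eventuallyEq (Eventually.of_forall fun s => ?_)
  simp only [Function.comp_def]
  congr 1
  module

/-- On the top stratum the derivative is the tangent cone map. -/
theorem fderiv_eq_tcone [FiniteDimensional ℝ E] {h : E → F} {x : E} (Hx : ConicalAt h x) (htop : linSpace h x = ⊤) (v : E) :
    fderiv ℝ h x v = tcone h x v := by
  have hd := differentiableAt_of_top Hx htop
  have h1 := hasDerivAt_of_mem Hx (v := v) (by rw [htop]; trivial)
  have h2 : HasDerivAt (fun t : ℝ => x + t • v) v 0 := by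
    have := ((hasDerivAt_id (0:ℝ)).smul_const v).const_add x
    rw [one_smul] at this
    exact this
  have h3 : HasFDerivAt h (fderiv ℝ h x) (x + (0:ℝ) • v) := by simpa using hd.hasFDerivAt
  exact (h3.comp_hasDerivAt 0 h2).unique h1

/-- A conical map on a neighbourhood of a point where it is affine in a set with dense directions:
the tangent cone map on directions into a set where `h` is affine. -/
theorem tcone_of_affine {h : E → F} {x v : E} {L : E →L[ℝ] F} {A : E → F}
    (hA : ∀ y z, A y - A z = L (y - z)) (hx : h x = A x)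
    (hev : ∀ᶠ s : ℝ in 𝓝[>] 0, h (x + s • v) = A (x + s • v)) : tcone h x v = L v := by
  apply tcone_eq_of_eventually
  filter_upwards [hev, self_mem_nhdsWithin] with s hs hs0
  rw [hs, hx, hA, add_sub_cancel_left, map_smul, smul_smul, inv_mul_cancel₀ (ne_of_gt hs0),
    one_smul]

end P073.SMF
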