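import Vale.Agent.P073.SMF.Transfer
import Vale.Agent.P073.SMV.VStep

/-!
# Block SMF: the smoothing theorem with measures on `V = Fin 3 → ℝ`
-/

namespace P073.SMF

open Set Metric Topology Filter MeasureTheory
open scoped ContDiff ENNReal
open Vale.Agent.P073.St (V IsBoundedDomain IsDiffeo Sm IsInv euc)
open Vale.Agent.P073.SMV (R3 SpecSM DiffeoOn AdmMeas ConData)

/-- the linear isomorphism from Euclidean space onto `V` -/
noncomputable def eV : R3 ≃L[ℝ] V := EuclideanSpace.equiv (Fin 3) ℝ

theorem norm_eV_le (x : R3) : ‖eV x‖ ≤ ‖x‖ := by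
  rw [pi_norm_le_iff_of_nonneg (norm_nonneg _)]
  intro i
  exact PiLp.norm_apply_le x i

/-- the same as a measurable equivalence -/
noncomputable def mV : V ≃ᵐ R3 := eV.symm.toHomeomorph.toMeasurableEquiv

theorem mV_apply (x : V) : mV x = eV.symm x := rfl

theorem bounded_of_euc {Ω : Set V} (h : IsBoundedDomain Ω) : Bornology.IsBounded Ω := by
  obtain ⟨-, -, R, hR⟩ := h
  refine (Metric.isBounded_closedBall (x := (0 : V)) (r := R)).subset fun x hx => ?_
  rw [mem_closedBall, dist_zero_right]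
  have h1 := hR x hx
  have h2 : 0 ≤ R := (Real.sqrt_nonneg _).trans h1
  rw [pi_norm_le_iff_of_nonneg h2]
  intro i
  refine le_trans ?_ h1
  rw [euc, Real.norm_eq_abs]
  apply Real.abs_le_sqrt
  exact Finset.single_le_sum (f := fun i => x i ^ 2) (fun j _ => sq_nonneg (x j))
    (Finset.mem_univ i)

theorem bounded_preimage {Ω : Set V} (h : Bornology.IsBounded Ω) :
    Bornology.IsBounded (eV ⁻¹' Ω) := by
  have h1 := (eV.symm : V →L[ℝ] R3).lipschitz.isBounded_image h
  refine h1.subset fun x hx => ⟨eV x, hx, ?_⟩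
  simp

theorem connected_preimage {Ω : Set V} (h : IsConnected Ω) : IsConnected (eV ⁻¹' Ω) := by
  have h1 := h.image eV.symm eV.symm.continuous.continuousOn
  rwa [eV.symm.image_eq_preimage_symm] at h1

/-- back from a diffeomorphism in Euclidean space -/
theorem isDiffeo_of {Ω Λ : Set V} {g k : R3 → R3} (H : DiffeoOn (eV ⁻¹' Ω) (eV ⁻¹' Λ) g k) :
    IsDiffeo Ω Λ (fun x => eV (g (eV.symm x))) ∧
      ContDiffOn ℝ ∞ (fun x => eV (g (eV.symm x))) Ω := by
  have m1 : ∀ x ∈ Ω, eV.symm x ∈ eV ⁻¹' Ω := fun x hx => by simpa using hx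
  have m2 : ∀ x ∈ Λ, eV.symm x ∈ eV ⁻¹' Λ := fun x hx => by simpa using hx
  have s1 : ContDiffOn ℝ ∞ (fun x => eV (g (eV.symm x))) Ω :=
    eV.contDiff.comp_contDiffOn (H.smooth.comp eV.symm.contDiff.contDiffOn m1)
  have s2 : ContDiffOn ℝ ∞ (fun x => eV (k (eV.symm x))) Λ :=
    eV.contDiff.comp_contDiffOn (H.smooth'.comp eV.symm.contDiff.contDiffOn m2)
  refine ⟨⟨fun x => eV (k (eV.symm x)), ⟨fun x hx => ⟨H.maps (m1 x hx), ?_⟩,
    fun y hy => ⟨H.maps' (m2 y hy), ?_⟩⟩, fun i => contDiffOn_pi.1 s1 i,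
    fun i => contDiffOn_pi.1 s2 i⟩, s1⟩
  · simp only [eV.symm_apply_apply]
    rw [H.left _ (m1 x hx), eV.apply_symm_apply]
  · simp only [eV.symm_apply_apply]
    rw [H.right _ (m2 y hy), eV.apply_symm_apply]

theorem fderiv_cjb {g : R3 → R3} {x : V} (hg : DifferentiableAt ℝ g (eV.symm x)) (v : V) :
    fderiv ℝ (fun x => eV (g (eV.symm x))) x v = eV (fderiv ℝ g (eV.symm x) (eV.symm v)) := by
  have h1 : HasFDerivAt (fun x => eV (g (eV.symm x)))
      ((eV : R3 →L[ℝ] V).comp ((fderiv ℝ g (eV.symm x)).comp (eV.symm : V →L[ℝ] R3))) x :=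
    eV.hasFDerivAt.comp x (hg.hasFDerivAt.comp x eV.symm.hasFDerivAt)
  rw [h1.fderiv]
  rfl

theorem specSmoothM (hSM : SpecSM) : SpecSmoothM := by
  intro p Ω Λ h ι hι μ τ η ε hp hΩ hΛ hfin hatom hloc hτ hη hε hεpos
  have := hι
  let _ := Encodable.ofCountable ι
  classical
  set Ω' : Set R3 := eV ⁻¹' Ω with hΩ'
  set Λ' : Set R3 := eV ⁻¹' Λ with hΛ'
  have hΩ'o : IsOpen Ω' := hΩ.1.preimage eV.continuous
  have hΛ'o : IsOpen Λ' := hΛ.1.preimage eV.continuous
  -- the data indexed by `ℕ`
  set μ' : ℕ → Measure R3 := fun n => match Encodable.decode₂ ι n with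
    | some i => (μ i).map mV
    | none => 0 with hμ'
  set τ' : ℕ → R3 := fun n => match Encodable.decode₂ ι n with
    | some i => eV.symm (τ i)
    | none => 0 with hτ'
  set η' : ℕ → ℝ := fun n => match Encodable.decode₂ ι n with
    | some i => η i
    | none => 1 with hη'
  have hcomp : ∀ K ⊆ Ω', IsCompact K → eV '' K ⊆ Ω ∧ IsCompact (eV '' K) := fun K hK hKc =>
    ⟨image_subset_iff.2 hK, hKc.image eV.continuous⟩
  have hmapK : ∀ i, ∀ K ⊆ Ω', IsCompact K → (μ i).map mV K = μ i (eV '' K) := by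
    intro i K hK hKc
    rw [mV.map_apply]
    congr 1
    ext x
    constructor
    · intro hx
      exact ⟨eV.symm x, hx, by simp⟩
    · rintro ⟨y, hy, rfl⟩
      change eV.symm (eV y) ∈ K
      simpa using hy
  have hdata : ConData Ω' Λ' (cjHomeo eV h) μ' τ' := by
    refine ⟨fun n => ?_, fun K hK hKc => ?_, fun n => ?_⟩
    · rcases hdec : Encodable.decode₂ ι n with _ | i
      · have : μ' n = 0 := by simp only [hμ', hdec]
        rw [this]
        exact ⟨fun K _ _ => by simp, fun x _ => by simp⟩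
      · have hn : μ' n = (μ i).map mV := by simp only [hμ', hdec]
        rw [hn]
        refine ⟨fun K hK hKc => ?_, fun x hx => ?_⟩
        · rw [hmapK i K hK hKc]
          exact hfin i _ (hcomp K hK hKc).1 (hcomp K hK hKc).2
        · rw [hmapK i {x} (singleton_subset_iff.2 hx) isCompact_singleton, image_singleton]
          exact hatom i _ hx
    · have h1 := hloc _ (hcomp K hK hKc).1 (hcomp K hK hKc).2
      refine (h1.image Encodable.encode).subset ?_
      intro n hn
      rw [mem_ofPred_eq] at hn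
      rcases hdec : Encodable.decode₂ ι n with _ | i
      · exfalso; apply hn; simp only [hμ', hdec]; simp
      · have hn' : μ' n = (μ i).map mV := by simp only [hμ', hdec]
        rw [hn', hmapK i K hK hKc] at hn
        exact ⟨i, hn, Encodable.decode₂_eq_some.1 hdec⟩
    · rcases hdec : Encodable.decode₂ ι n with _ | i
      · have : μ' n = 0 := by simp only [hμ', hdec]
        rw [this]; simp
      · have hn : μ' n = (μ i).map mV := by simp only [hμ', hdec]
        have hn2 : τ' n = eV.symm (τ i) := by simp only [hτ', hdec]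
        rw [hn, hn2, mV.measurableEmbedding.ae_map_iff]
        filter_upwards [hτ i] with x hx hxΩ
        rw [mV_apply] at hxΩ ⊢
        have hxΩ2 : x ∈ Ω := by simpa [hΩ'] using hxΩ
        apply mem_linSpace_cj
        · rw [eV.apply_symm_apply]
          exact h.conical.conicalAt hΩ.1 hxΩ2
        · rw [eV.apply_symm_apply, eV.apply_symm_apply]
          exact hx hxΩ2
  obtain ⟨g, k', hg, hclose, hint⟩ := hSM Ω' Λ' (cjHomeo eV h) p μ' τ' η' (fun x => ε (eV x)) hp
    hΩ'o (connected_preimage hΩ.2.1) (bounded_preimage (bounded_of_euc hΩ)) hΛ'o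
    (bounded_preimage (bounded_of_euc hΛ)) hdata (by
      intro n
      rcases hdec : Encodable.decode₂ ι n with _ | i
      · simp only [hη', hdec]; exact one_pos
      · simp only [hη', hdec]; exact hη i)
    (hε.comp eV.continuous.continuousOn (fun x hx => hx)) (fun x hx => hεpos _ hx)
  obtain ⟨hG1, hG2⟩ := isDiffeo_of hg
  refine ⟨fun x => eV (g (eV.symm x)), hG1, hG2, fun x hx => ?_, fun i => ?_⟩
  · have hx' : eV.symm x ∈ Ω' := by simpa [hΩ'] using hx
    have h1 := hclose _ hx'
    rw [eV.apply_symm_apply] at h1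
    have h2 : eV (g (eV.symm x)) - h.toFun x =
        eV (g (eV.symm x) - (cjHomeo eV h).toFun (eV.symm x)) := by
      have e1 : (cjHomeo eV h).toFun (eV.symm x) = eV.symm (h.toFun (eV (eV.symm x))) := rfl
      rw [map_sub, e1, eV.apply_symm_apply, eV.apply_symm_apply]
    rw [h2]
    exact (norm_eV_le _).trans h1
  · have h1 := hint (Encodable.encode i)
    have hdec : Encodable.decode₂ ι (Encodable.encode i) = some i := Encodable.encodek₂ i
    have e1 : μ' (Encodable.encode i) = (μ i).map mV := by simp only [hμ', hdec]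
    have e2 : τ' (Encodable.encode i) = eV.symm (τ i) := by simp only [hτ', hdec]
    have e3 : η' (Encodable.encode i) = η i := by simp only [hη', hdec]
    rw [e1, e2, e3, Measure.restrict_map mV.measurable hΩ'o.measurableSet,
      lintegral_map_equiv] at h1
    refine le_trans ?_ h1
    have hpre : mV ⁻¹' Ω' = Ω := by
      ext x
      rw [mem_preimage, mV_apply, hΩ', mem_preimage, eV.apply_symm_apply]
    rw [hpre]
    apply setLIntegral_mono' hΩ.1.measurableSet
    intro x hx
    apply ENNReal.ofReal_le_ofReal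
    apply Real.rpow_le_rpow (norm_nonneg _) _ (by linarith)
    have hx' : eV.symm x ∈ Ω' := by simpa [hΩ'] using hx
    have hd : DifferentiableAt ℝ g (eV.symm x) :=
      ((hg.smooth _ hx').contDiffAt (hΩ'o.mem_nhds hx')).differentiableAt (by simp)
    have hca : ConicalAt h.toFun (eV (eV.symm x)) := by
      rw [eV.apply_symm_apply]; exact h.conical.conicalAt hΩ.1 hx
    have ht : tcone (cjHomeo eV h).toFun (eV.symm x) (eV.symm (τ i)) =
        eV.symm (tcone h.toFun x (τ i)) := by
      have := tcone_cj (e := eV) hca (eV.symm (τ i))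
      rw [eV.apply_symm_apply, eV.apply_symm_apply] at this
      exact this
    rw [fderiv_cjb hd, mV_apply, ht]
    have h2 : eV (fderiv ℝ g (eV.symm x) (eV.symm (τ i))) - tcone h.toFun x (τ i) =
        eV (fderiv ℝ g (eV.symm x) (eV.symm (τ i)) - eV.symm (tcone h.toFun x (τ i))) := by
      rw [map_sub, eV.apply_symm_apply]
    rw [h2]
    exact norm_eV_le _

end P073.SMF
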