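import Vale.Agent.P073.SMF.Meas
import Vale.Agent.P073.SMF.Ae

/-!
# Block SMF: the smoothing theorem for segments, flat pieces and the volume
-/

namespace P073.SMF

open Set Metric Topology Filter MeasureTheory
open scoped ContDiff ENNReal
open Vale.Agent.P073.St (V IsBoundedDomain IsDiffeo)
open Vale.Agent.P073.SMV (SpecSM)

section meas

variable {Ω : Set V} {h : V → V}

theorem measurable_tcone (hΩ : IsOpen Ω) (H : ConicalOn h Ω) (hc : ContinuousOn h Ω) (τ : V) :
    Measurable (Ω.indicator (fun x => tcone h x τ)) := by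
  have hh : Measurable (Ω.indicator h) := by
    classical
    have h1 := hc.measurable_piecewise (continuousOn_const (c := (0 : V))) hΩ.measurableSet
    have h2 : Ω.piecewise h (fun _ => 0) = Ω.indicator h := piecewise_eq_indicator
    rwa [h2] at h1
  apply measurable_of_tendsto_metrizable (f := fun (n : ℕ) => Ω.indicator (fun x =>
    ((n : ℝ) + 1) • (Ω.indicator h (x + (1 / ((n : ℝ) + 1)) • τ) - Ω.indicator h x)))
  · intro n
    apply Measurable.indicator _ hΩ.measurableSet
    have h1 : Measurable fun x => Ω.indicator h (x + (1 / ((n : ℝ) + 1)) • τ) :=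
      hh.comp (measurable_id.add_const _)
    exact (h1.sub hh).const_smul ((n : ℝ) + 1)
  · rw [tendsto_pi_nhds]
    intro x
    by_cases hx : x ∈ Ω
    · simp only [indicator_of_mem hx]
      obtain ⟨r, hr, hform⟩ := (H.conicalAt hΩ hx).exists_tcone
      have hlim : Tendsto (fun n : ℕ => (1 / ((n : ℝ) + 1)) • τ) atTop (𝓝 0) := by
        have := (tendsto_one_div_add_atTop_nhds_zero_nat (𝕜 := ℝ)).smul_const τ
        rwa [zero_smul] at this
      have e1 : ∀ᶠ n : ℕ in atTop, ‖(1 / ((n : ℝ) + 1)) • τ‖ < r := by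
        have h1 : Tendsto (fun n : ℕ => ‖(1 / ((n : ℝ) + 1)) • τ‖) atTop (𝓝 0) := by
          have := hlim.norm; rwa [norm_zero] at this
        exact h1.eventually (gt_mem_nhds hr)
      have e2 : ∀ᶠ n : ℕ in atTop, x + (1 / ((n : ℝ) + 1)) • τ ∈ Ω := by
        have h1 : Tendsto (fun n : ℕ => x + (1 / ((n : ℝ) + 1)) • τ) atTop (𝓝 (x + 0)) :=
          hlim.const_add x
        rw [add_zero] at h1
        exact h1.eventually (hΩ.mem_nhds hx)
      apply tendsto_const_nhds.congr'
      filter_upwards [e1, e2] with n h1 h2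
      have hn : (0:ℝ) < (n : ℝ) + 1 := by positivity
      rw [indicator_of_mem h2, hform _ h1.le, (H.conicalAt hΩ hx).tcone_smul (by positivity),
        add_sub_cancel_left, smul_smul, mul_one_div_cancel hn.ne', one_smul]
    · simp only [indicator_of_notMem hx]
      exact tendsto_const_nhds

/-- the integrand -/
noncomputable def FF (G h : V → V) (p : ℝ) (τ : V) (x : V) : ℝ≥0∞ :=
  ENNReal.ofReal (‖fderiv ℝ G x τ - tcone h x τ‖ ^ p)

theorem measurable_FF (hΩ : IsOpen Ω) (H : ConicalOn h Ω) (hc : ContinuousOn h Ω) (G : V → V)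
    (p : ℝ) (τ : V) : Measurable (Ω.indicator (FF G h p τ)) := by
  have h1 : Ω.indicator (FF G h p τ) = Ω.indicator (fun x => ENNReal.ofReal
      (‖fderiv ℝ G x τ - Ω.indicator (fun x => tcone h x τ) x‖ ^ p)) := by
    ext x
    by_cases hx : x ∈ Ω
    · simp only [indicator_of_mem hx, FF]
    · simp only [indicator_of_notMem hx]
  rw [h1]
  apply Measurable.indicator _ hΩ.measurableSet
  apply ENNReal.measurable_ofReal.comp
  exact (((measurable_fderiv_apply_const ℝ G τ).sub (measurable_tcone hΩ H hc τ)).norm).pow_const p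

theorem lintegral_FF {X : Type*} [MeasurableSpace X] {ν : Measure X} {φ : X → V}
    (hφ : Measurable φ) (hm : ∀ᵐ x ∂ν, φ x ∈ Ω)
    (hΩ : IsOpen Ω) (H : ConicalOn h Ω) (hc : ContinuousOn h Ω) (G : V → V) (p : ℝ) (τ : V) :
    ∫⁻ x, FF G h p τ (φ x) ∂ν = ∫⁻ y in Ω, FF G h p τ y ∂(ν.map φ) := by
  rw [← lintegral_indicator hΩ.measurableSet, lintegral_map (measurable_FF hΩ H hc G p τ) hφ]
  apply lintegral_congr_ae
  filter_upwards [hm] with x hx
  rw [indicator_of_mem hx]

theorem isOpen_linSpace (hΩ : IsOpen Ω) (H : ConicalOn h Ω) (τ : V) :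
    IsOpen {x | x ∈ Ω ∧ τ ∈ linSpace h x} := by
  rw [Metric.isOpen_iff]
  rintro x ⟨hx, hxτ⟩
  obtain ⟨r, hr, hform⟩ := (H.conicalAt hΩ hx).exists_tcone
  obtain ⟨s, hs, hb⟩ := Metric.isOpen_iff.1 hΩ x hx
  refine ⟨min r s, lt_min hr hs, fun y hy => ?_⟩
  rw [mem_ball, lt_min_iff] at hy
  have hyΩ : y ∈ Ω := hb hy.2
  have hyx : y = x + (y - x) := by abel
  refine ⟨hyΩ, ?_⟩
  have h1 := linSpace_le_near (H.conicalAt hΩ hx) hform (v := y - x)
    (by rw [← dist_eq_norm]; exact hy.1) (by rw [← hyx]; exact H.conicalAt hΩ hyΩ) hxτ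
  rwa [← hyx] at h1

theorem ae_map_linSpace {X : Type*} [MeasurableSpace X] {ν : Measure X} {φ : X → V}
    (hφ : Measurable φ) (hΩ : IsOpen Ω) (H : ConicalOn h Ω) {τ : V}
    (hl : ∀ᵐ x ∂ν, τ ∈ linSpace h (φ x)) :
    ∀ᵐ y ∂(ν.map φ), y ∈ Ω → τ ∈ linSpace h y := by
  have hs : MeasurableSet {y : V | y ∈ Ω → τ ∈ linSpace h y} := by
    have : {y : V | y ∈ Ω → τ ∈ linSpace h y} = Ωᶜ ∪ {x | x ∈ Ω ∧ τ ∈ linSpace h x} := by
      ext y
      simp only [mem_ofPred_eq, mem_union, mem_compl_iff]
      tauto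
    rw [this]
    exact hΩ.measurableSet.compl.union (isOpen_linSpace hΩ H τ).measurableSet
  rw [ae_map_iff hφ.aemeasurable hs]
  filter_upwards [hl] with x hx _ using hx

end meas

theorem specSmooth_of (hM : SpecSmoothM) : SpecSmooth := by
  intro p Ω Λ h ε ε₀ hp hΩ hΛ hε hεpos hε₀ ι hι a d η hd hseg hsegf hη κ hκ k c Q η' hQ hQΩ hQf hη'
  have := hι
  have := hκ
  classical
  -- maps and measures
  set φ : ι → ℝ → V := fun i t => a i + t • d i with hφ
  set ψ : κ → V → V := fun q x => Function.update x (k q) (c q) with hψ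
  have hφc : ∀ i, Continuous (φ i) := fun i => by simp only [hφ]; fun_prop
  have hψc : ∀ q, Continuous (ψ q) := fun q => continuous_id.update (k q) continuous_const
  set μ : ι ⊕ (κ × Fin 3) ⊕ Fin 3 → Measure V := Sum.elim
    (fun i => (volume.restrict (Icc (0:ℝ) 1)).map (φ i))
    (Sum.elim (fun q => (volume.restrict (Q q.1)).map (ψ q.1)) (fun _ => volume)) with hμ
  set τ : ι ⊕ (κ × Fin 3) ⊕ Fin 3 → V := Sum.elim d
    (Sum.elim (fun q => if q.2 = k q.1 then 0 else Pi.single q.2 1) (fun j => Pi.single j 1))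
    with hτ
  set η₀ : ι ⊕ (κ × Fin 3) ⊕ Fin 3 → ℝ := Sum.elim η
    (Sum.elim (fun q => η' q.1) (fun _ => ε₀)) with hη₀
  have hφΩ : ∀ i, ∀ t ∈ Icc (0:ℝ) 1, φ i t ∈ Ω := by
    intro i t ht
    apply hseg i
    rw [segment_eq_image']
    exact ⟨t, ht, by simp [hφ]⟩
  have aeφ : ∀ i, ∀ᵐ t ∂(volume.restrict (Icc (0:ℝ) 1)), φ i t ∈ Ω := fun i => by
    filter_upwards [ae_restrict_mem measurableSet_Icc] with t ht using hφΩ i t ht
  have aeψ : ∀ q, ∀ᵐ x ∂(volume.restrict (Q q)), ψ q x ∈ Ω := fun q => by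
    filter_upwards [ae_restrict_mem (hQ q).measurableSet] with x hx using hQΩ q x hx
  -- linearity spaces
  have linφ : ∀ i, ∀ᵐ t ∂(volume.restrict (Icc (0:ℝ) 1)), d i ∈ linSpace h.toFun (φ i t) := by
    intro i
    have h1 := ae_range_le (volume : Measure ℝ) hΩ.1 h.conical (a i)
      (ContinuousLinearMap.toSpanSingleton ℝ (d i))
    filter_upwards [ae_restrict_of_ae h1, aeφ i] with t ht htΩ
    have h2 := ht (by simpa [hφ] using htΩ) 1
    simpa [hφ] using h2
  have linψ : ∀ q, ∀ᵐ x ∂(volume.restrict (Q q)), ∀ j, j ≠ k q →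
      (Pi.single j 1 : V) ∈ linSpace h.toFun (ψ q x) := by
    intro q
    set T : V →L[ℝ] V := ContinuousLinearMap.pi (fun l =>
      if l = k q then 0 else ContinuousLinearMap.proj l) with hT
    have hTx : ∀ x, Function.update (0 : V) (k q) (c q) + T x = ψ q x := by
      intro x
      ext l
      by_cases hl : l = k q
      · subst hl; simp [hT, hψ]
      · simp [hT, hψ, hl]
    have hTj : ∀ j, j ≠ k q → T (Pi.single j 1) = Pi.single j 1 := by
      intro j hj
      ext l
      by_cases hl : l = k q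
      · subst hl; simp [hT, hj.symm]
      · simp [hT, hl]
    have h1 := ae_range_le (volume : Measure V) hΩ.1 h.conical
      (Function.update (0 : V) (k q) (c q)) T
    filter_upwards [ae_restrict_of_ae h1, aeψ q] with x hx hxΩ j hj
    have h2 := hx (by rw [hTx]; exact hxΩ) (Pi.single j 1)
    rwa [hTx, hTj j hj] at h2
  have linV : ∀ᵐ x ∂(volume : Measure V), x ∈ Ω → linSpace h.toFun x = ⊤ := by
    have h1 := measure_singular_eq_zero (volume : Measure V) hΩ.1 h.conical h.cont
    rw [measure_eq_zero_iff_ae_notMem] at h1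
    filter_upwards [h1] with x hx hxΩ
    by_contra hcon
    exact hx ⟨hxΩ, hcon⟩
  obtain ⟨G, hG, hGs, hclose, hint⟩ := hM p Ω Λ h (ι ⊕ (κ × Fin 3) ⊕ Fin 3) inferInstance μ τ η₀ ε
    hp hΩ hΛ (by
      rintro (i | q | j) K hK hKc
      · simp only [hμ, Sum.elim_inl]
        exact measure_lt_top _ _
      · simp only [hμ, Sum.elim_inr, Sum.elim_inl]
        have : IsFiniteMeasure (volume.restrict (Q q.1)) :=
          ⟨by rw [Measure.restrict_apply_univ]; exact (hQ q.1).measure_lt_top⟩
        exact measure_lt_top _ _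
      · simp only [hμ, Sum.elim_inr]
        exact hKc.measure_lt_top) (by
      rintro (i | q | j) x hx
      · simp only [hμ, Sum.elim_inl]
        rw [Measure.map_apply (hφc i).measurable (measurableSet_singleton x)]
        refine measure_mono_null (t := {t | φ i t = x}) (fun t ht => ht) ?_
        have hsub : {t | φ i t = x}.Subsingleton := by
          intro s hs t ht
          have h1 : φ i s = φ i t := hs.trans ht.symm
          have h2 : (s - t) • d i = 0 := by
            simp only [hφ] at h1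
            have := add_left_cancel h1
            rw [sub_smul, this, sub_self]
          rcases smul_eq_zero.1 h2 with h3 | h3
          · linarith
          · exact absurd h3 (hd i)
        exact hsub.measure_zero _
      · simp only [hμ, Sum.elim_inr, Sum.elim_inl]
        rw [Measure.map_apply (hψc q.1).measurable (measurableSet_singleton x)]
        obtain ⟨j, hj⟩ : ∃ j : Fin 3, j ≠ k q.1 := exists_ne _
        refine measure_mono_null (t := {y : V | y j = x j}) ?_ ?_
        · intro y hy
          have h1 : ψ q.1 y = x := hy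
          have h2 := congrFun h1 j
          simp only [hψ, Function.update_of_ne hj] at h2
          exact h2
        · refine Measure.absolutelyContinuous_of_le Measure.restrict_le_self ?_
          exact Measure.pi_hyperplane (fun _ : Fin 3 => (volume : Measure ℝ)) j (x j)
      · simp only [hμ, Sum.elim_inr]
        exact measure_singleton x) (by
      intro K hK hKc
      have f1 := (hsegf K hK hKc).image (Sum.inl : ι → ι ⊕ (κ × Fin 3) ⊕ Fin 3)
      have f2 := ((hQf K hK hKc).prod (finite_univ (α := Fin 3))).image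
        (fun q => (Sum.inr (Sum.inl q) : ι ⊕ (κ × Fin 3) ⊕ Fin 3))
      have f3 := (finite_univ (α := Fin 3)).image
        (fun j => (Sum.inr (Sum.inr j) : ι ⊕ (κ × Fin 3) ⊕ Fin 3))
      refine ((f1.union f2).union f3).subset ?_
      rintro (i | q | j) hi
      · left; left
        refine ⟨i, ?_, rfl⟩
        have hi' : (volume.restrict (Icc (0:ℝ) 1)).map (φ i) K ≠ 0 := hi
        rw [Measure.map_apply (hφc i).measurable hKc.measurableSet] at hi'
        obtain ⟨t, ht⟩ := nonempty_of_measure_ne_zero (μ := volume)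
          (s := φ i ⁻¹' K ∩ Icc (0:ℝ) 1) (by
            rwa [Measure.restrict_apply (hKc.measurableSet.preimage (hφc i).measurable)] at hi')
        refine ⟨φ i t, ?_, ht.1⟩
        rw [segment_eq_image']
        exact ⟨t, ht.2, by simp [hφ]⟩
      · left; right
        refine ⟨q, ⟨?_, mem_univ _⟩, rfl⟩
        have hi' : (volume.restrict (Q q.1)).map (ψ q.1) K ≠ 0 := hi
        rw [Measure.map_apply (hψc q.1).measurable hKc.measurableSet] at hi'
        obtain ⟨x, hx⟩ := nonempty_of_measure_ne_zero (μ := volume)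
          (s := ψ q.1 ⁻¹' K ∩ Q q.1) (by
            rwa [Measure.restrict_apply (hKc.measurableSet.preimage (hψc q.1).measurable)] at hi')
        exact ⟨x, hx.2, hx.1⟩
      · right
        exact ⟨j, mem_univ _, rfl⟩) (by
      rintro (i | q | j)
      · simp only [hμ, hτ, Sum.elim_inl]
        exact ae_map_linSpace (hφc i).measurable hΩ.1 h.conical (linφ i)
      · simp only [hμ, hτ, Sum.elim_inl, Sum.elim_inr]
        apply ae_map_linSpace (hψc q.1).measurable hΩ.1 h.conical
        filter_upwards [linψ q.1] with x hx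
        split_ifs with hq
        · exact Submodule.zero_mem _
        · exact hx _ hq
      · simp only [hμ, hτ, Sum.elim_inr]
        filter_upwards [linV] with x hx hxΩ
        rw [hx hxΩ]; trivial) (by
      rintro (i | q | j)
      · exact hη i
      · exact hη' q.1
      · exact hε₀) hε hεpos
  refine ⟨G, hG, hGs, hclose, fun i => ?_, fun q j hj => ?_, fun j => ?_⟩
  · have h1 := hint (Sum.inl i)
    simp only [hμ, hτ, hη₀, Sum.elim_inl] at h1
    refine le_trans (le_of_eq ?_) h1
    change _ = ∫⁻ x in Ω, FF G h.toFun p (d i) x ∂_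
    rw [← lintegral_FF (hφc i).measurable (aeφ i) hΩ.1 h.conical h.cont]
    apply lintegral_congr_ae
    filter_upwards [linφ i, aeφ i] with t ht htΩ
    have h2 := hasDerivAt_line (h.conical.conicalAt hΩ.1 htΩ) ht
    rw [h2.deriv]
    rfl
  · have h1 := hint (Sum.inr (Sum.inl (q, j)))
    simp only [hμ, hτ, hη₀, Sum.elim_inl, Sum.elim_inr, if_neg hj] at h1
    refine le_trans (le_of_eq ?_) h1
    change _ = ∫⁻ x in Ω, FF G h.toFun p (Pi.single j 1) x ∂_
    rw [← lintegral_FF (hψc q).measurable (aeψ q) hΩ.1 h.conical h.cont]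
    apply lintegral_congr_ae
    filter_upwards [linψ q, aeψ q] with x hx hxΩ
    have h2 := hasDerivAt_of_mem (h.conical.conicalAt hΩ.1 hxΩ) (hx j hj)
    rw [lineDeriv, FF, ← h2.deriv]
  · have h1 := hint (Sum.inr (Sum.inr j))
    simp only [hμ, hτ, hη₀, Sum.elim_inr] at h1
    refine le_trans (le_of_eq ?_) h1
    apply lintegral_congr_ae
    filter_upwards [ae_restrict_of_ae linV, ae_restrict_mem hΩ.1.measurableSet] with x hx hxΩ
    rw [fderiv_eq_tcone (h.conical.conicalAt hΩ.1 hxΩ) (hx hxΩ)]

theorem specSmooth (hSM : SpecSM) : SpecSmooth := specSmooth_of (specSmoothM hSM)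

end P073.SMF
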