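import Vale.Agent.P073.SMF.Spec

/-!
# Block SMF: transfer of conical homeomorphisms along a linear isomorphism
-/

namespace P073.SMF

open Set Metric Topology Filter MeasureTheory
open scoped ContDiff ENNReal
open Vale.Agent.P073.St (V IsBoundedDomain IsDiffeo)

section conj

variable {E E' : Type*} [NormedAddCommGroup E] [NormedSpace ℝ E]
  [NormedAddCommGroup E'] [NormedSpace ℝ E'] (e : E' ≃L[ℝ] E) {Ω Λ : Set E}

/-- conjugation of a map -/
def cj (h : E → E) (x : E') : E' := e.symm (h (e x))

variable {e}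

theorem conicalAt_cj {h : E → E} {x : E'} (H : ConicalAt h (e x)) : ConicalAt (cj e h) x := by
  obtain ⟨r, hr, H⟩ := H
  obtain ⟨ρ, hρ, hb⟩ := Metric.nhds_basis_closedBall.mem_iff.1
    (e.continuous.continuousAt.preimage_mem_nhds (x := (0 : E')) (t := closedBall 0 r)
      (by rw [map_zero]; exact closedBall_mem_nhds _ hr))
  refine ⟨ρ, hρ, fun v hv t ht => ?_⟩
  have h1 : ‖e v‖ ≤ r := by
    have := hb (show v ∈ closedBall 0 ρ by rwa [mem_closedBall, dist_zero_right])
    rwa [mem_preimage, mem_closedBall, dist_zero_right] at this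
  simp only [cj, map_add, map_smul]
  rw [H (e v) h1 t ht, map_add, map_smul, map_sub]

theorem tcone_cj {h : E → E} {x : E'} (H : ConicalAt h (e x)) (v : E') :
    tcone (cj e h) x v = e.symm (tcone h (e x) (e v)) := by
  obtain ⟨r, hr, hform⟩ := H.exists_tcone
  apply tcone_eq_of_eventually
  have hc : Continuous (fun s : ℝ => ‖s • e v‖) := by fun_prop
  have h1 : ∀ᶠ s : ℝ in 𝓝[>] 0, ‖s • e v‖ < r :=
    (hc.continuousAt.eventually_lt_const (by simpa using hr)).filter_mono nhdsWithin_le_nhds
  filter_upwards [h1, self_mem_nhdsWithin] with s hs hs0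
  simp only [cj, map_add, map_smul]
  rw [hform _ hs.le, H.tcone_smul (le_of_lt hs0), map_add, add_sub_cancel_left, map_smul,
    smul_smul, inv_mul_cancel₀ (ne_of_gt hs0), one_smul]

theorem mem_linSpace_cj {h : E → E} {x : E'} (H : ConicalAt h (e x)) {v : E'}
    (hv : e v ∈ linSpace h (e x)) : v ∈ linSpace (cj e h) x := by
  intro s u
  rw [tcone_cj H, tcone_cj H, tcone_cj H, map_add, map_smul, hv s (e u), map_add, map_smul]

theorem conicalOn_cj {h : E → E} (H : ConicalOn h Ω) : ConicalOn (cj e h) (e ⁻¹' Ω) := by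
  intro x hx
  obtain ⟨r, hr, H⟩ := H (e x) hx
  obtain ⟨ρ, hρ, hb⟩ := Metric.nhds_basis_closedBall.mem_iff.1
    (e.continuous.continuousAt.preimage_mem_nhds (x := (0 : E')) (t := closedBall 0 r)
      (by rw [map_zero]; exact closedBall_mem_nhds _ hr))
  refine ⟨ρ, hρ, fun v hv hxv t ht => ?_⟩
  have h1 : ‖e v‖ ≤ r := by
    have := hb (show v ∈ closedBall 0 ρ by rwa [mem_closedBall, dist_zero_right])
    rwa [mem_preimage, mem_closedBall, dist_zero_right] at this
  obtain ⟨h2, h3⟩ := H (e v) h1 (by rw [← map_add]; exact hxv) t ht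
  refine ⟨?_, ?_⟩
  · rw [mem_preimage, map_add, map_smul]; exact h2
  · simp only [cj, map_add, map_smul]
    rw [h3, map_add, map_smul, map_sub]

/-- conjugation of a conical homeomorphism -/
def cjHomeo (e : E' ≃L[ℝ] E) (h : ConHomeo Ω Λ) : ConHomeo (e ⁻¹' Ω) (e ⁻¹' Λ) where
  toFun := cj e h.toFun
  invFun := cj e h.invFun
  mapsTo := fun x hx => by
    simp only [cj, mem_preimage, e.apply_symm_apply]
    exact h.mapsTo hx
  mapsTo_inv := fun x hx => by
    simp only [cj, mem_preimage, e.apply_symm_apply]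
    exact h.mapsTo_inv hx
  left_inv := fun x hx => by
    simp only [cj, e.apply_symm_apply]
    rw [h.left_inv hx, e.symm_apply_apply]
  right_inv := fun x hx => by
    simp only [cj, e.apply_symm_apply]
    rw [h.right_inv hx, e.symm_apply_apply]
  cont := e.symm.continuous.comp_continuousOn
    (h.cont.comp e.continuous.continuousOn (fun _ hx => hx))
  cont_inv := e.symm.continuous.comp_continuousOn
    (h.cont_inv.comp e.continuous.continuousOn (fun _ hx => hx))
  conical := conicalOn_cj h.conical

end conj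

end P073.SMF
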